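import Vale.Agent.P267.H983.RRFinal
import Vale.Agent.P267.H955.PSEx
import Vale.Agent.P267.H439.PSC

/-!
# P267 / H983, RR-FINAL: `Analytic X` from the trace formula

`analytic_of_chi`: everything in `Analytic X` except the trace formula is proved; `rrBlock_of_chi`.
-/

open scoped Manifold ContDiff ComplexConjugate Matrix
open MeasureTheory Set Filter Topology

noncomputable section

namespace Vale.Agent.P267.H983

open Vale.Agent.P267.FL Vale.Agent.P267.RR Vale.Agent.P267.H285 Vale.Agent.P267.H439

/-- the trace formula for the Euler characteristic -/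
def ChiStmt (X : Type) [TopologicalSpace X] [T2Space X] [CompactSpace X] [ChartedSpace C2 X]
    [IsManifold 𝓘(ℂ, C2) ω X] : Prop :=
  ∀ (A : FinAt X) (r : ℕ) (B : Bun A r) (P : PS B),
    (B.chi : ℂ) = ∑ a, ∫ z, (A.r a z : ℂ) * P.dens a z

theorem analytic_of_chi {X : Type} [TopologicalSpace X] [T2Space X] [CompactSpace X]
    [ChartedSpace C2 X] [IsManifold 𝓘(ℂ, C2) ω X] (h : ChiStmt X) : Analytic X where
  ps _ _ B := H955.exists_PS B
  cplx _ _ _ P := H439.exists_cplxOf P
  chi := h

/-- **the Riemann-Roch block from the trace formula** -/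
theorem rrBlock_of_chi (h : ∀ (X : Type) [TopologicalSpace X] [T2Space X] [CompactSpace X]
    [ChartedSpace C2 X] [IsManifold 𝓘(ℂ, C2) ω X], ChiStmt X) : RRBlock :=
  rrBlock fun X => analytic_of_chi (h X)

end Vale.Agent.P267.H983
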