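import Vale.Agent.P267.H439.DictC

/-!
# P267 / H983, RR-FINAL: finiteness of the cohomology of line bundles from the one of `F.bun κ`
-/

set_option linter.unusedSectionVars false
set_option linter.unusedVariables false

open scoped Manifold ContDiff ComplexConjugate Matrix
open Set Filter Topology

noncomputable section

namespace Vale.Agent.P267.H983

open Vale.Agent.P267.FL Vale.Agent.P267.RR Vale.Agent.P267.H439

/-- a surjection of pairs gives finiteness of the quotient -/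
theorem fin_quot_of_surj {U U' : Type*} [AddCommGroup U] [Module ℂ U] [AddCommGroup U']
    [Module ℂ U'] {N : Submodule ℂ U} {N' : Submodule ℂ U'} (f : U →ₗ[ℂ] U')
    (hf : Function.Surjective f) (hN : N ≤ N'.comap f) (h : FiniteDimensional ℂ (U ⧸ N)) :
    FiniteDimensional ℂ (U' ⧸ N') := by
  refine Module.Finite.of_surjective (Submodule.mapQ N N' f hN) ?_
  intro y
  obtain ⟨u', rfl⟩ := Submodule.Quotient.mk_surjective N' y
  obtain ⟨u, rfl⟩ := hf u'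
  exact ⟨Submodule.Quotient.mk u, rfl⟩

/-- the cohomology in degree 1 of a three term complex -/
abbrev Co1 {M0 M1 M2 : Type*} [AddCommGroup M0] [Module ℂ M0] [AddCommGroup M1] [Module ℂ M1]
    [AddCommGroup M2] [Module ℂ M2] (d0 : M0 →ₗ[ℂ] M1) (d1 : M1 →ₗ[ℂ] M2) : Type _ :=
  ↥(LinearMap.ker d1) ⧸ (LinearMap.range d0).comap (LinearMap.ker d1).subtype

/-- a surjection on the closed elements gives finiteness of the cohomology -/
theorem fin_co1_of_surj {M0 M1 M2 : Type*} [AddCommGroup M0] [Module ℂ M0] [AddCommGroup M1]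
    [Module ℂ M1] [AddCommGroup M2] [Module ℂ M2] (d0 : M0 →ₗ[ℂ] M1) (d1 : M1 →ₗ[ℂ] M2)
    {U' : Type*} [AddCommGroup U'] [Module ℂ U'] {N' : Submodule ℂ U'}
    (f : LinearMap.ker d1 →ₗ[ℂ] U') (hf : Function.Surjective f)
    (hN : ∀ u, ∀ h : d0 u ∈ LinearMap.ker d1, f ⟨d0 u, h⟩ ∈ N')
    (h : FiniteDimensional ℂ (Co1 d0 d1)) : FiniteDimensional ℂ (U' ⧸ N') := by
  refine fin_quot_of_surj f hf ?_ h
  rintro ⟨w, hw⟩ ⟨u, hu⟩
  have hu' : d0 u = w := hu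
  subst hu'
  exact hN u hw

variable {X : Type*} [TopologicalSpace X] [ChartedSpace C2 X] [IsManifold 𝓘(ℂ, C2) ω X]
  {ι : Type} [Fintype ι] [DecidableEq ι] {A : FinAt X} {L : LB X ι} {a : X → Fin 2 → ℂ}

theorem eq1_symm_d0 (F : LFr A L a) (ha : L.IsHol a) (κ : ℤ) (u : (F.bun κ).sb0.Sec) :
    (F.eq1 κ).symm ((F.bun κ).d0 u) = d0L ha κ ((F.eq0 κ).symm u) := by
  rw [LinearEquiv.symm_apply_eq, F.eq1_db0 κ ha, LinearEquiv.apply_symm_apply]

theorem eq2_symm_d1 (F : LFr A L a) (ha : L.IsHol a) (κ : ℤ) (w : (F.bun κ).sb1.Sec) :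
    (F.eq2 κ).symm ((F.bun κ).d1 w) = d1L ha κ ((F.eq1 κ).symm w) := by
  rw [LinearEquiv.symm_apply_eq, F.eq2_db1 κ ha, LinearEquiv.apply_symm_apply]

theorem fin_H0 (F : LFr A L a) (ha : L.IsHol a) (κ : ℤ)
    (h : FiniteDimensional ℂ (LinearMap.ker (F.bun κ).d0)) : FiniteDimensional ℂ (H0 L a κ) := by
  let f : LinearMap.ker (F.bun κ).d0 →ₗ[ℂ] H0 L a κ :=
    LinearMap.codRestrict _ ((A0 L κ).subtype.comp ((F.eq0 κ).symm.toLinearMap.comp
      (LinearMap.ker (F.bun κ).d0).subtype)) (by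
      rintro ⟨u, hu⟩
      refine (mem_H0 L a κ).2 ⟨((F.eq0 κ).symm u).2, ?_⟩
      have h1 := eq1_symm_d0 F ha κ u
      rw [LinearMap.mem_ker] at hu
      rw [hu, map_zero] at h1
      exact (congrArg Subtype.val h1).symm)
  refine Module.Finite.of_surjective f ?_
  rintro ⟨s, hs⟩
  obtain ⟨h1, h2⟩ := (mem_H0 L a κ).1 hs
  refine ⟨⟨F.eq0 κ ⟨s, h1⟩, ?_⟩, ?_⟩
  · rw [LinearMap.mem_ker, ← F.eq1_db0 κ ha]
    have h3 : d0L ha κ ⟨s, h1⟩ = 0 := Subtype.ext h2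
    rw [h3, map_zero]
  · apply Subtype.ext
    change ((F.eq0 κ).symm (F.eq0 κ ⟨s, h1⟩) : A0 L κ).1 = s
    rw [LinearEquiv.symm_apply_apply]

theorem fin_H1 (F : LFr A L a) (ha : L.IsHol a) (κ : ℤ)
    (h : FiniteDimensional ℂ (Co1 (F.bun κ).d0 (F.bun κ).d1)) :
    FiniteDimensional ℂ (H1 L a κ) := by
  let f : LinearMap.ker (F.bun κ).d1 →ₗ[ℂ] Z1 L a κ :=
    LinearMap.codRestrict _ ((A1 L κ).subtype.comp ((F.eq1 κ).symm.toLinearMap.comp
      (LinearMap.ker (F.bun κ).d1).subtype)) (by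
      rintro ⟨u, hu⟩
      refine (mem_Z1 L a κ).2 ⟨((F.eq1 κ).symm u).2, ?_⟩
      have h1 := eq2_symm_d1 F ha κ u
      rw [LinearMap.mem_ker] at hu
      rw [hu, map_zero] at h1
      exact (congrArg Subtype.val h1).symm)
  refine fin_co1_of_surj (F.bun κ).d0 (F.bun κ).d1 f ?_ ?_ h
  · rintro ⟨s, hs⟩
    obtain ⟨h1, h2⟩ := (mem_Z1 L a κ).1 hs
    refine ⟨⟨F.eq1 κ ⟨s, h1⟩, ?_⟩, ?_⟩
    · rw [LinearMap.mem_ker, ← F.eq2_db1 κ ha]
      have h3 : d1L ha κ ⟨s, h1⟩ = 0 := Subtype.ext h2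
      rw [h3, map_zero]
    · apply Subtype.ext
      change ((F.eq1 κ).symm (F.eq1 κ ⟨s, h1⟩) : A1 L κ).1 = s
      rw [LinearEquiv.symm_apply_apply]
  · intro u hu
    change ((F.eq1 κ).symm ((F.bun κ).d0 u) : A1 L κ).1 ∈ B1 L a κ
    rw [eq1_symm_d0 F ha κ u]
    exact ⟨(F.eq0 κ).symm u, rfl⟩

theorem fin_H2 (F : LFr A L a) (ha : L.IsHol a) (κ : ℤ)
    (h : FiniteDimensional ℂ ((F.bun κ).sb2.Sec ⧸ LinearMap.range (F.bun κ).d1)) :
    FiniteDimensional ℂ (H2 L a κ) := by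
  refine fin_quot_of_surj (F.eq2 κ).symm.toLinearMap (F.eq2 κ).symm.surjective ?_ h
  rintro _ ⟨w, rfl⟩
  change ((F.eq2 κ).symm ((F.bun κ).d1 w) : A2 L κ).1 ∈ B2 L a κ
  rw [eq2_symm_d1 F ha κ w]
  exact ⟨(F.eq1 κ).symm w, rfl⟩

end Vale.Agent.P267.H983
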