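import Vale.Agent.P267.H983.FinLB
import Vale.Agent.P267.H983.FrOf
import Vale.Agent.P267.H983.EpOm
import Vale.Agent.P267.H439.DictD
import Vale.Agent.P267.H509.CWSys
import Vale.Agent.P267.H285.Coh

/-!
# P267 / H983, RR-FINAL: the Riemann-Roch block from the kernel construction

`Analytic X`: every holomorphic bundle (given by transition matrices) has a parametrix with smooth
remainder, whose density is the Riemann-Roch density; its complex of Banach spaces; the trace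
formula for the Euler characteristic.  `rrBlock`: this gives finiteness, Serre duality,
Riemann-Roch and Noether's formula.
-/

set_option linter.unusedSectionVars false

open scoped Manifold ContDiff ComplexConjugate Matrix
open MeasureTheory Set Filter Topology

noncomputable section

namespace Vale.Agent.P267.H983

open Vale.Agent.P267.FL Vale.Agent.P267.RR Vale.Agent.P267.H285 Vale.Agent.P267.H439

section defs

variable {X : Type*} [TopologicalSpace X] [CompactSpace X] [ChartedSpace C2 X]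
  [IsManifold 𝓘(ℂ, C2) ω X] {A : FinAt X} {r : ℕ}

variable (X)

/-- the output of the kernel construction -/
structure Analytic : Prop where
  ps : ∀ (A : FinAt X) (r : ℕ) (B : Bun A r), ∃ P : PS B, ∀ a, ∀ z ∈ A.K a,
    P.dens a z = 1 / (Real.pi : ℂ) ^ 2 * H509.todd B a z
  cplx : ∀ (A : FinAt X) (r : ℕ) (B : Bun A r), PS B → ∃ C : BCplx B, CplxOf B C
  chi : ∀ (A : FinAt X) (r : ℕ) (B : Bun A r) (P : PS B),
    (B.chi : ℂ) = ∑ a, ∫ z, (A.r a z : ℂ) * P.dens a z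

end defs

namespace CplxOf

variable {X : Type*} [TopologicalSpace X] [CompactSpace X] [ChartedSpace C2 X]
  [IsManifold 𝓘(ℂ, C2) ω X] {A : FinAt X} {r : ℕ} {B : Bun A r} {C : BCplx B}

theorem fr1 (h : CplxOf B C) : FR1 B := fr1_of C h.i1 h.d0 h.d1

theorem fr2 (h : CplxOf B C) : FR2 B := fr2_of C h.i2 h.d1

theorem d0_eq (h : CplxOf B C) : C.d0 = B.d0 := LinearMap.ext h.d0

theorem d1_eq (h : CplxOf B C) : C.d1 = B.d1 := LinearMap.ext h.d1

theorem fin0 (h : CplxOf B C) : FiniteDimensional ℂ (LinearMap.ker B.d0) := by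
  obtain ⟨g⟩ := C.exists_hodge
  rw [← h.d0_eq]
  exact g.fin_coh0

theorem fin1 (h : CplxOf B C) : FiniteDimensional ℂ (Co1 B.d0 B.d1) := by
  obtain ⟨g⟩ := C.exists_hodge
  rw [← h.d0_eq, ← h.d1_eq]
  exact g.fin_coh1

theorem fin2 (h : CplxOf B C) : FiniteDimensional ℂ (B.sb2.Sec ⧸ LinearMap.range B.d1) := by
  obtain ⟨g⟩ := C.exists_hodge
  rw [← h.d1_eq]
  exact g.fin_coh2

end CplxOf

section block

variable {X : Type} [TopologicalSpace X] [T2Space X] [CompactSpace X] [ChartedSpace C2 X]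
  [IsManifold 𝓘(ℂ, C2) ω X]

theorem finiteStmt (H : Analytic X) : FiniteStmt X := by
  intro ι _ _ L a ha κ
  obtain ⟨A, ⟨F⟩⟩ := exists_lfr ha
  obtain ⟨P, -⟩ := H.ps A 1 (F.bun κ)
  obtain ⟨C, hC⟩ := H.cplx A 1 (F.bun κ) P
  exact ⟨fin_H0 F ha κ hC.fin0, fin_H1 F ha κ hC.fin1, fin_H2 F ha κ hC.fin2⟩

/-- the bundles of `K^κ ⊗ L` and `K^{1-κ} ⊗ L^*` are dual to each other -/
theorem sd_dual {ι : Type} [Fintype ι] [DecidableEq ι] {L : LB X ι} {a : X → Fin 2 → ℂ}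
    {A : FinAt X} (F : LFr A L a) (κ : ℤ) : SD (F.bun κ) (F.dual.bun (1 - κ)) 1 := by
  refine ⟨by simp, fun i j z hz => ?_⟩
  have h1 : F.e κ i j z ≠ 0 := by
    rw [LFr.e]
    exact mul_ne_zero (zpow_ne_zero _ (FinAt.J_det_ne hz)) (F.g_ne hz.1.2 hz.2)
  have h2 := FinAt.J_det_ne hz
  ext k l
  fin_cases k
  fin_cases l
  rw [Matrix.mul_one]
  simp only [LFr.bun_E_eq, F.dual_e κ hz, Matrix.smul_apply, Matrix.mul_apply,
    Matrix.transpose_apply, Matrix.of_apply, Finset.univ_unique, Finset.sum_const,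
    Finset.card_singleton, one_smul, smul_eq_mul]
  simp
  field_simp

theorem serreStmt (H : Analytic X) : SerreStmt X := by
  intro ι _ _ L a ha κ
  obtain ⟨A, ⟨F⟩⟩ := exists_lfr ha
  have ha' : L.dual.IsHol (-a) := ha.dual
  obtain ⟨P, -⟩ := H.ps A 1 (F.bun κ)
  obtain ⟨P', -⟩ := H.ps A 1 (F.dual.bun (1 - κ))
  obtain ⟨C, hC⟩ := H.cplx A 1 _ P
  obtain ⟨C', hC'⟩ := H.cplx A 1 _ P'
  have hs := sd_dual F κ
  rw [F.h0_eq κ ha, F.h1_eq κ ha, F.h2_eq κ ha, F.dual.h0_eq (1 - κ) ha',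
    F.dual.h1_eq (1 - κ) ha', F.dual.h2_eq (1 - κ) ha']
  exact ⟨hs.h0_eq_h2 P' hC'.fr2, hs.h1_eq_h1 P hC.fr1 P' hC'.fr1, hs.h2_eq_h0 P hC.fr2⟩

/-- the Euler characteristic is the integral of the Riemann-Roch density -/
theorem chi_todd (H : Analytic X) {A : FinAt X} {r : ℕ} (B : Bun A r) :
    (B.chi : ℂ) = ∑ a, ∫ z, (A.r a z : ℂ) * (1 / (Real.pi : ℂ) ^ 2 * H509.todd B a z) := by
  obtain ⟨P, hP⟩ := H.ps A r B
  rw [H.chi A r B P]
  refine Finset.sum_congr rfl fun a _ => ?_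
  refine integral_congr_ae (Eventually.of_forall fun z => ?_)
  by_cases hz : z ∈ A.K a
  · simp only [hP a z hz]
  · simp only [r_zero hz, Complex.ofReal_zero, zero_mul]

/-- the frames in the language of helper509 -/
theorem fr_of_lfr {ι : Type} [Fintype ι] [DecidableEq ι] {L : LB X ι} {a : X → Fin 2 → ℂ}
    {A : FinAt X} (F : LFr A L a) (i : Fin A.N) : H509.Fr L (A.U i) (F.t i) where
  isOpen := A.isOpen_U i
  smooth x hx k := by
    have h1 : ContDiffAt ℝ ∞ (loc0 0 (chartAt C2 x) (F.t i)) (chartAt C2 x x) := F.sm i x hx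
    rw [LB.loc0_zero] at h1
    exact ((EuclideanSpace.proj k : EuclideanSpace ℂ ι →L[ℂ] ℂ).restrictScalars
      ℝ).contDiff.contDiffAt.comp _ h1
  sec := F.sec i
  ne := F.ne i

theorem rrStmt (H : Analytic X) : RRStmt X := by
  intro ι ι' _ _ _ _ L a LK ha hK
  obtain ⟨A, ⟨F⟩⟩ := exists_lfr ha
  have h0 : (OX X).IsHol 0 := LB.isHol_triv 0
  rw [F.chi_eq 0 ha, (trivFr A (0 : Fin 1)).chi_eq 0 h0]
  exact H509.riemann_roch hK (F.bun 0) ((trivFr A (0 : Fin 1)).bun 0) (s := F.t)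
    (H509.CFr.of_hol a (fr_of_lfr F) F.hol)
    (fun i j x hx => F.t_eq_E hx.1 hx.2) (fun i j z _ => trivFr_E_zero A 0 i j z)
    (chi_todd H _) (chi_todd H _) (fun _ _ _ => rfl) (fun _ _ _ => rfl)

theorem noetherStmt (H : Analytic X) : NoetherStmt X := by
  intro ι' _ _ LK hK
  have h0 : (OX X).IsHol 0 := LB.isHol_triv 0
  obtain ⟨A, ⟨F⟩⟩ := exists_lfr h0
  rw [(trivFr A (0 : Fin 1)).chi_eq 0 h0, chiOm_eq (A := A)]
  refine H509.noether hK ((trivFr A (0 : Fin 1)).bun 0) (omBun A)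
    (fun i j z _ => trivFr_E_zero A 0 i j z) (fun i j z hz => ?_)
    (chi_todd H _) (chi_todd H _) (fun _ _ _ => rfl) (fun _ _ _ => rfl)
  rw [H983.J_inv_eq hz]
  rfl

/-- `h^{1,2} = h^{1,0}` -/
theorem serreOm (H : Analytic X) : h12 X = h10 X := by
  have h0 : (OX X).IsHol 0 := LB.isHol_triv 0
  obtain ⟨A, -⟩ := exists_lfr h0
  obtain ⟨P, -⟩ := H.ps A 2 (omBun A)
  obtain ⟨C, hC⟩ := H.cplx A 2 _ P
  exact h12_eq_h10 P hC.fr2

end block

/-- **the Riemann-Roch block** -/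
theorem rrBlock (H : ∀ (X : Type) [TopologicalSpace X] [T2Space X] [CompactSpace X]
    [ConnectedSpace X] [ChartedSpace C2 X] [IsManifold 𝓘(ℂ, C2) ω X], Analytic X) : RRBlock := by
  intro X _ _ _ _ _ _
  exact ⟨finiteStmt (H X), serreStmt (H X), rrStmt (H X), noetherStmt (H X)⟩

end Vale.Agent.P267.H983
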